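import Crest.Agent.Lib.Bc.Cert3.Base
/-!
# Row 163, `Cert 3`, inequality II (helper48): data and kernel check
-/
namespace Crest.Agent.Lib.Bc.Cert3.II
open BiCheck (Term Rval termV Ax Side Prob)

noncomputable def triv : Ax := ⟨1, 0, [0, 1]⟩

/-- `40 (a + a' - U1 - β'g - βg' - κ₂aa')` in `(a, 2c, a', 2c')` -/
noncomputable def iiT : List Term := [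
  ⟨0,1,0,0,1,0,0,4⟩, ⟨0,1,0,1,0,0,10,0⟩, ⟨0,1,0,1,1,0,20,0⟩, ⟨0,1,0,2,0,0,0,52⟩, ⟨1,0,0,0,1,0,10,0⟩, ⟨1,0,0,1,0,0,36,0⟩,
  ⟨1,0,0,2,0,0,0,35⟩, ⟨1,1,0,0,1,0,20,0⟩, ⟨1,1,0,1,1,0,0,80⟩, ⟨1,1,0,2,0,0,120,0⟩, ⟨2,0,0,0,1,0,0,52⟩, ⟨2,0,0,1,0,0,0,35⟩,
  ⟨2,0,0,1,1,0,120,0⟩, ⟨2,0,0,2,0,0,0,80⟩]

/-- `2560` times the same over `s²s'²` in the chart -/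
noncomputable def iiH : List Term := [
  ⟨0,0,0,0,0,0,2304,0⟩, ⟨0,0,0,0,1,0,0,1728⟩, ⟨0,0,0,1,0,0,1280,0⟩, ⟨0,0,0,1,1,0,0,1440⟩, ⟨0,0,0,2,0,0,0,2240⟩, ⟨0,0,0,2,1,0,3360,0⟩,
  ⟨0,0,0,2,2,0,0,1260⟩, ⟨0,1,0,0,0,0,0,1728⟩, ⟨0,1,0,0,1,0,1296,0⟩, ⟨0,1,0,1,0,0,0,960⟩, ⟨0,1,0,1,1,0,1080,0⟩, ⟨0,1,0,2,0,0,1680,0⟩,
  ⟨0,1,0,2,1,0,0,2520⟩, ⟨0,1,0,2,2,0,945,0⟩, ⟨1,0,0,0,0,0,1280,0⟩, ⟨1,0,0,0,1,0,0,960⟩, ⟨1,0,0,1,0,0,0,1024⟩, ⟨1,0,0,1,1,0,1152,0⟩,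
  ⟨1,0,0,2,0,0,0,6656⟩, ⟨1,0,0,2,1,0,9984,0⟩, ⟨1,0,0,2,2,0,0,3744⟩, ⟨1,0,0,3,0,0,5120,0⟩, ⟨1,0,0,3,1,0,0,9600⟩, ⟨1,0,0,3,2,0,4320,0⟩,
  ⟨1,1,0,0,0,0,0,1440⟩, ⟨1,1,0,0,1,0,1080,0⟩, ⟨1,1,0,1,0,0,1152,0⟩, ⟨1,1,0,1,1,0,0,1296⟩, ⟨1,1,0,2,0,0,7488,0⟩, ⟨1,1,0,2,1,0,0,11232⟩,
  ⟨1,1,0,2,2,0,4212,0⟩, ⟨1,1,0,3,0,0,0,5760⟩, ⟨1,1,0,3,1,0,10800,0⟩, ⟨1,1,0,3,2,0,0,4860⟩, ⟨2,0,0,0,0,0,0,2240⟩, ⟨2,0,0,0,1,0,1680,0⟩,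
  ⟨2,0,0,1,0,0,0,6656⟩, ⟨2,0,0,1,1,0,7488,0⟩, ⟨2,0,0,2,0,0,0,5120⟩, ⟨2,0,0,2,1,0,7680,0⟩, ⟨2,0,0,2,2,0,0,2880⟩, ⟨2,0,0,3,0,0,15360,0⟩,
  ⟨2,0,0,3,1,0,0,28800⟩, ⟨2,0,0,3,2,0,12960,0⟩, ⟨2,1,0,0,0,0,3360,0⟩, ⟨2,1,0,0,1,0,0,2520⟩, ⟨2,1,0,1,0,0,9984,0⟩, ⟨2,1,0,1,1,0,0,11232⟩,
  ⟨2,1,0,2,0,0,7680,0⟩, ⟨2,1,0,2,1,0,0,11520⟩, ⟨2,1,0,2,2,0,4320,0⟩, ⟨2,1,0,3,0,0,0,23040⟩, ⟨2,1,0,3,1,0,43200,0⟩, ⟨2,1,0,3,2,0,0,19440⟩,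
  ⟨2,2,0,0,0,0,0,1260⟩, ⟨2,2,0,0,1,0,945,0⟩, ⟨2,2,0,1,0,0,0,3744⟩, ⟨2,2,0,1,1,0,4212,0⟩, ⟨2,2,0,2,0,0,0,2880⟩, ⟨2,2,0,2,1,0,4320,0⟩,
  ⟨2,2,0,2,2,0,0,1620⟩, ⟨2,2,0,3,0,0,8640,0⟩, ⟨2,2,0,3,1,0,0,16200⟩, ⟨2,2,0,3,2,0,7290,0⟩, ⟨3,0,0,1,0,0,5120,0⟩, ⟨3,0,0,1,1,0,0,5760⟩,
  ⟨3,0,0,2,0,0,15360,0⟩, ⟨3,0,0,2,1,0,0,23040⟩, ⟨3,0,0,2,2,0,8640,0⟩, ⟨3,0,0,3,0,0,0,20480⟩, ⟨3,0,0,3,1,0,38400,0⟩, ⟨3,0,0,3,2,0,0,17280⟩,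
  ⟨3,1,0,1,0,0,0,9600⟩, ⟨3,1,0,1,1,0,10800,0⟩, ⟨3,1,0,2,0,0,0,28800⟩, ⟨3,1,0,2,1,0,43200,0⟩, ⟨3,1,0,2,2,0,0,16200⟩, ⟨3,1,0,3,0,0,38400,0⟩,
  ⟨3,1,0,3,1,0,0,72000⟩, ⟨3,1,0,3,2,0,32400,0⟩, ⟨3,2,0,1,0,0,4320,0⟩, ⟨3,2,0,1,1,0,0,4860⟩, ⟨3,2,0,2,0,0,12960,0⟩, ⟨3,2,0,2,1,0,0,19440⟩,
  ⟨3,2,0,2,2,0,7290,0⟩, ⟨3,2,0,3,0,0,0,17280⟩, ⟨3,2,0,3,1,0,32400,0⟩, ⟨3,2,0,3,2,0,0,14580⟩]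

noncomputable def Sii : Side := ⟨⟨16, 3, [0, 1, 2, 3, 4, 5, 6, 7, 8, 9, 10, 11, 12, 13, 14, 15, 16]⟩, ⟨8, 2, [0, 1, 2, 3, 4, 5, 6, 7, 8]⟩, triv, 24, 2^24, 173⟩
noncomputable def Pii : Prob := ⟨Sii, Sii, 78, 2^93, iiH, [], []⟩

set_option maxRecDepth 100000 in
theorem ii_check : Pii.check = true := by decide +kernel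

end Crest.Agent.Lib.Bc.Cert3.II
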