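import Crest.Agent.Lib.Bc.Cert3.Base
/-!
# Row 163, `Cert 3`, inequality I (helper48): polynomials of the minorant
-/
namespace Crest.Agent.Lib.Bc.Cert3.I
open PolyFast (E den den_add' den_sub' den_mul' den_neg' den_pow' den_var' den_num' eq_of_check')

noncomputable def PQ (w : ℝ) : ℝ := 1024 - 2048 * w + 2791 * w ^ 2 - 5276 * w ^ 3 + 5610 * w ^ 4 - 2252 * w ^ 5
def PQE (w : E) : E := E.num 1024 - E.num 2048 * w + E.num 2791 * w ^ 2 - E.num 5276 * w ^ 3 + E.num 5610 * w ^ 4 - E.num 2252 * w ^ 5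
lemma den_PQE (vs : List ℝ) (w : E) : den vs (PQE w) = PQ (den vs w) := by
  simp only [PQE, PQ, den_add', den_sub', den_mul', den_pow', den_num']
  norm_num

noncomputable def UQ (w : ℝ) : ℝ := 1024 - 3072 * w + 4972 * w ^ 2 - 3983 * w ^ 3 + 1069 * w ^ 4
def UQE (w : E) : E := E.num 1024 - E.num 3072 * w + E.num 4972 * w ^ 2 - E.num 3983 * w ^ 3 + E.num 1069 * w ^ 4
lemma den_UQE (vs : List ℝ) (w : E) : den vs (UQE w) = UQ (den vs w) := by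
  simp only [UQE, UQ, den_add', den_sub', den_mul', den_pow', den_num']
  norm_num

noncomputable def TQ (w : ℝ) : ℝ := 1169 * w ^ 2 - 3924 * w ^ 3 + 3274 * w ^ 4 + 715 * w ^ 5 - 727 * w ^ 6
def TQE (w : E) : E := E.num 1169 * w ^ 2 - E.num 3924 * w ^ 3 + E.num 3274 * w ^ 4 + E.num 715 * w ^ 5 - E.num 727 * w ^ 6
lemma den_TQE (vs : List ℝ) (w : E) : den vs (TQE w) = TQ (den vs w) := by
  simp only [TQE, TQ, den_add', den_sub', den_mul', den_pow', den_num']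
  norm_num

noncomputable def EQ (w : ℝ) : ℝ := 13 * w ^ 2 + 21 * w ^ 3 + 66 * w ^ 4 - 104 * w ^ 5 + 1 * w ^ 6 + 32 * w ^ 7 - 7 * w ^ 8
def EQE (w : E) : E := E.num 13 * w ^ 2 + E.num 21 * w ^ 3 + E.num 66 * w ^ 4 - E.num 104 * w ^ 5 + E.num 1 * w ^ 6 + E.num 32 * w ^ 7 - E.num 7 * w ^ 8
lemma den_EQE (vs : List ℝ) (w : E) : den vs (EQE w) = EQ (den vs w) := by
  simp only [EQE, EQ, den_add', den_sub', den_mul', den_pow', den_num']
  norm_num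

/-- `4096 α` in `(a, C = 2c)` -/
noncomputable def alQ (a C : ℝ) : ℝ := 4096 + 5106 * C ^ 1 + 1571 * C ^ 2 - 21432 * a ^ 1 - 13174 * a ^ 1 * C ^ 1 + 29220 * a ^ 2 - 1936 * a ^ 3
def alE (a C : E) : E := E.num 4096 + E.num 5106 * C ^ 1 + E.num 1571 * C ^ 2 - E.num 21432 * a ^ 1 - E.num 13174 * a ^ 1 * C ^ 1 + E.num 29220 * a ^ 2 - E.num 1936 * a ^ 3
lemma den_alE (vs : List ℝ) (a C : E) : den vs (alE a C) = alQ (den vs a) (den vs C) := by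
  simp only [alE, alQ, den_add', den_sub', den_mul', den_pow', den_num']
  norm_num

/-- `4 g` -/
noncomputable def gQ (a C : ℝ) : ℝ := 2 * C - 3 * a ^ 2
def gE (a C : E) : E := E.num 2 * C - E.num 3 * a ^ 2
lemma den_gE (vs : List ℝ) (a C : E) : den vs (gE a C) = gQ (den vs a) (den vs C) := by
  simp only [gE, gQ, den_sub', den_mul', den_pow', den_num']
  norm_num

/-- `4096 · 4 ·` the minorant of `Z g(y)/…`, on a pair -/
noncomputable def F4 (x0 x1 x2 y0 y1 y2 : ℝ) : ℝ :=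
  1024 * Tail.zP x0 x1 x2 y0 y1 y2
    + 2 * (Tail.vP x0 x1 x2 y0 y1 y2 * PQ (Tail.zP x0 x1 x2 y0 y1 y2 - 1))
    - 3 * (Tail.nP x0 x1 x2 y0 y1 y2 ^ 2 * UQ (Tail.zP x0 x1 x2 y0 y1 y2 - 1)
      + Tail.nP x0 x1 x2 y0 y1 y2 * TQ (Tail.zP x0 x1 x2 y0 y1 y2 - 1)
      + EQ (Tail.zP x0 x1 x2 y0 y1 y2 - 1))

def F4E (x0 x1 x2 y0 y1 y2 : E) : E :=
  E.num 1024 * Tail.zE x0 x1 x2 y0 y1 y2
    + E.num 2 * (Tail.vE x0 x1 x2 y0 y1 y2 * PQE (Tail.zE x0 x1 x2 y0 y1 y2 - E.num 1))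
    - E.num 3 * (Tail.nE x0 x1 x2 y0 y1 y2 ^ 2 * UQE (Tail.zE x0 x1 x2 y0 y1 y2 - E.num 1)
      + Tail.nE x0 x1 x2 y0 y1 y2 * TQE (Tail.zE x0 x1 x2 y0 y1 y2 - E.num 1)
      + EQE (Tail.zE x0 x1 x2 y0 y1 y2 - E.num 1))

lemma den_F4E (vs : List ℝ) (a b c d e f : E) : den vs (F4E a b c d e f)
    = F4 (den vs a) (den vs b) (den vs c) (den vs d) (den vs e) (den vs f) := by
  simp only [F4E, F4, den_add', den_sub', den_mul', den_pow', den_num', Tail.den_zE, Tail.den_nE, Tail.den_vE,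
    den_PQE, den_UQE, den_TQE, den_EQE]
  norm_num

end Crest.Agent.Lib.Bc.Cert3.I
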